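import Crest.Agent.R001.ST.Siegel

/-!
# R001 / ST: choosing the derivative level and the prime
-/

set_option autoImplicit false

namespace Crest.Agent.R001.ST

open Polynomial Finset
open scoped Polynomial.Bivariate

theorem evalEval_eq_map (g : ℤ[X][Y]) (s t : ℤ) :
    g.evalEval s t = (g.map (evalRingHom s)).eval t := by
  rw [evalEval, ← coe_evalRingHom, ← eval₂_hom, eval_map]
  congr 1
  simp

theorem iterate_derivative_map' (f : ℤ[X][Y]) (x : ℤ) (k : ℕ) :
    (derivative^[k] f).map (evalRingHom x) = derivative^[k] (f.map (evalRingHom x)) := by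
  rw [iterate_derivative_map]

/-- the abscissae at which `f` vanishes identically in `Y` are few. -/
theorem card_vertical_le {n : ℕ} {H : ℤ} {f : ℤ[X][Y]} (hf : f ≠ 0) (hb : Bdd n H f)
    (A : Finset ℤ) (hA : ∀ x ∈ A, f.map (evalRingHom x) = 0) : A.card ≤ n := by
  classical
  obtain ⟨j, hj⟩ : ∃ j, f.coeff j ≠ 0 := by
    by_contra h
    push Not at h
    exact hf (Polynomial.ext (by simpa using h))
  have hsub : A ⊆ (f.coeff j).roots.toFinset := by
    intro x hx
    rw [Multiset.mem_toFinset, mem_roots hj, IsRoot.def]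
    have := congrArg (fun q : ℤ[X] => q.coeff j) (hA x hx)
    simpa [coeff_map] using this
  calc A.card ≤ (f.coeff j).roots.toFinset.card := card_le_card hsub
    _ ≤ Multiset.card (f.coeff j).roots := Multiset.toFinset_card_le _
    _ ≤ (f.coeff j).natDegree := card_roots' _
    _ ≤ n := hb.degX j

/-- at a point where `f(x,·)` is not identically zero some derivative of order `≤ n` does not vanish. -/
theorem exists_level_pt {n : ℕ} {H : ℤ} {f : ℤ[X][Y]} (hb : Bdd n H f) (x y : ℤ)
    (hx : f.map (evalRingHom x) ≠ 0) :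
    ∃ k ≤ n, (derivative^[k] f).evalEval x y ≠ 0 := by
  set q := f.map (evalRingHom x)
  refine ⟨q.natDegree, le_trans natDegree_map_le hb.degY, ?_⟩
  rw [evalEval_eq_map, iterate_derivative_map']
  have h : (derivative^[q.natDegree] q) = C ((q.natDegree.factorial : ℤ) * q.leadingCoeff) := by
    have hd : (derivative^[q.natDegree] q).natDegree ≤ 0 := by
      refine le_trans (natDegree_iterate_derivative q q.natDegree) (by simp)
    rw [eq_C_of_natDegree_le_zero hd, coeff_iterate_derivative]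
    simp [Nat.descFactorial_self]
  show eval y (derivative^[q.natDegree] q) ≠ 0
  rw [h, eval_C]
  exact mul_ne_zero (by exact_mod_cast Nat.factorial_ne_zero _) (leadingCoeff_ne_zero.2 hx)

theorem exists_level {n : ℕ} {H : ℤ} (hH : 0 ≤ H) (hn : 1 ≤ n) {f : ℤ[X][Y]} (hf : f ≠ 0)
    (hb : Bdd n H f) (E : Finset (ℤ × ℤ)) (hinj : Set.InjOn Prod.fst (E : Set (ℤ × ℤ)))
    (hE : ∀ P ∈ E, f.evalEval P.1 P.2 = 0) :
    ∃ (g : ℤ[X][Y]) (E' : Finset (ℤ × ℤ)), Bdd n (H * n ^ n) g ∧ E' ⊆ E ∧
      E.card ≤ n * E'.card + n ∧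
      ∀ P ∈ E', g.evalEval P.1 P.2 = 0 ∧ g.derivative.evalEval P.1 P.2 ≠ 0 := by
  classical
  set E0 := E.filter fun P => f.map (evalRingHom P.1) ≠ 0 with hE0
  have hE0card : E.card ≤ E0.card + n := by
    have hsplit : E.card = E0.card + (E.filter fun P => ¬ f.map (evalRingHom P.1) ≠ 0).card :=
      (card_filter_add_card_filter_not _).symm
    have hv : (E.filter fun P => ¬ f.map (evalRingHom P.1) ≠ 0).card ≤ n := by
      rw [← card_image_of_injOn (f := Prod.fst)
        (hinj.mono (by intro P hP; exact (mem_filter.1 (mem_coe.1 hP)).1))]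
      refine card_vertical_le hf hb _ ?_
      intro x hx
      obtain ⟨P, hP, rfl⟩ := mem_image.1 hx
      have := (mem_filter.1 hP).2
      push Not at this
      exact this
    omega
  have hex : ∀ P : ℤ × ℤ, P ∈ E0 → ∃ k, k ≤ n ∧ (derivative^[k] f).evalEval P.1 P.2 ≠ 0 := by
    intro P hP
    obtain ⟨k, hk, hk2⟩ := exists_level_pt hb P.1 P.2 (mem_filter.1 hP).2
    exact ⟨k, hk, hk2⟩
  let lev : ℤ × ℤ → ℕ := fun P => if h : ∃ k, k ≤ n ∧ (derivative^[k] f).evalEval P.1 P.2 ≠ 0
    then Nat.find h else 0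
  have hlev : ∀ P ∈ E0, 1 ≤ lev P ∧ lev P ≤ n ∧ (derivative^[lev P] f).evalEval P.1 P.2 ≠ 0 ∧
      (derivative^[lev P - 1] f).evalEval P.1 P.2 = 0 := by
    intro P hP
    have h := hex P hP
    have e : lev P = Nat.find h := dif_pos h
    rw [e]
    have hs := Nat.find_spec h
    have h1 : 1 ≤ Nat.find h := by
      by_contra hlt
      have h0 : Nat.find h = 0 := by omega
      rw [h0] at hs
      exact hs.2 (hE P (mem_filter.1 hP).1)
    refine ⟨h1, hs.1, hs.2, ?_⟩
    by_contra hne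
    exact Nat.find_min h (m := Nat.find h - 1) (by omega) ⟨by omega, hne⟩
  -- popular level
  obtain ⟨j, hj, hjmax⟩ := Finset.exists_max_image (Finset.Icc 1 n)
    (fun j => (E0.filter fun P => lev P = j).card) ⟨1, by simp [hn]⟩
  have hsum : E0.card = ∑ j ∈ Finset.Icc 1 n, (E0.filter fun P => lev P = j).card :=
    card_eq_sum_card_fiberwise fun P hP => by
      have := hlev P hP
      exact mem_coe.2 (mem_Icc.2 ⟨this.1, this.2.1⟩)
  refine ⟨derivative^[j - 1] f, E0.filter fun P => lev P = j, ?_, ?_, ?_, ?_⟩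
  · have h1 := hb.iterate_derivative hH (j - 1)
    refine ⟨h1.degY, h1.degX, fun a b => le_trans (h1.ht a b) ?_⟩
    refine mul_le_mul_of_nonneg_left ?_ hH
    exact pow_le_pow_right₀ (by exact_mod_cast hn) (by have := (mem_Icc.1 hj).2; omega)
  · exact (filter_subset _ _).trans (filter_subset _ _)
  · have : E0.card ≤ n * (E0.filter fun P => lev P = j).card := by
      rw [hsum]
      calc ∑ j ∈ Finset.Icc 1 n, (E0.filter fun P => lev P = j).card
          ≤ ∑ _j ∈ Finset.Icc 1 n, (E0.filter fun P => lev P = j).card :=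
            Finset.sum_le_sum fun i hi => hjmax i hi
        _ = n * (E0.filter fun P => lev P = j).card := by simp
    omega
  · intro P hP
    obtain ⟨hP0, hPj⟩ := mem_filter.1 hP
    have := hlev P hP0
    rw [hPj] at this
    refine ⟨this.2.2.2, ?_⟩
    have e : derivative (derivative^[j - 1] f) = derivative^[j] f := by
      rw [← Function.iterate_succ_apply' derivative (j - 1) f]
      have := this.1
      congr 2
      omega
    rw [e]
    exact this.2.2.1

/-- choice of a prime not dividing most of the values `w P`. -/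
theorem choose_prime {α : Type*} (E : Finset α) (w : α → ℤ) (Ps : Finset ℕ) (p₀ h : ℕ)
    (hne : Ps.Nonempty) (hprime : ∀ p ∈ Ps, p.Prime) (hp₀ : ∀ p ∈ Ps, p₀ ≤ p) (h2 : 2 ≤ p₀)
    (hw : ∀ P ∈ E, w P ≠ 0) (hwb : ∀ P ∈ E, |w P| < (p₀ : ℤ) ^ h) (hh : 2 * h ≤ Ps.card) :
    ∃ p ∈ Ps, E.card ≤ 2 * (E.filter fun P => ¬ (p : ℤ) ∣ w P).card := by
  classical
  have hP : ∀ P ∈ E, (Ps.filter fun p : ℕ => (p : ℤ) ∣ w P).card ≤ h := by
    intro P hP
    have hdvd : (∏ p ∈ Ps.filter (fun p : ℕ => (p : ℤ) ∣ w P), p) ∣ (w P).natAbs := by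
      apply Finset.prod_primes_dvd
      · intro p hp
        exact (hprime p (mem_filter.1 hp).1).prime
      · intro p hp
        rw [← Int.natCast_dvd_natCast, Int.dvd_natAbs]
        exact (mem_filter.1 hp).2
    have hle := Nat.le_of_dvd (Int.natAbs_pos.2 (hw P hP)) hdvd
    have hpow : p₀ ^ (Ps.filter fun p : ℕ => (p : ℤ) ∣ w P).card ≤
        ∏ p ∈ Ps.filter (fun p : ℕ => (p : ℤ) ∣ w P), p := by
      calc p₀ ^ (Ps.filter fun p : ℕ => (p : ℤ) ∣ w P).card =
            ∏ p ∈ Ps.filter (fun p : ℕ => (p : ℤ) ∣ w P), p₀ := by simp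
        _ ≤ _ := Finset.prod_le_prod' fun p hp => hp₀ p (mem_filter.1 hp).1
    have hlt : p₀ ^ (Ps.filter fun p : ℕ => (p : ℤ) ∣ w P).card < p₀ ^ h := by
      have h3 : ((w P).natAbs : ℤ) < (p₀ : ℤ) ^ h := by
        rw [← Int.abs_eq_natAbs]; exact hwb P hP
      have h4 : (w P).natAbs < p₀ ^ h := by exact_mod_cast h3
      omega
    exact ((Nat.pow_lt_pow_iff_right (by omega)).1 hlt).le
  have hdc : ∑ p ∈ Ps, (E.filter fun P => (p : ℤ) ∣ w P).card =
      ∑ P ∈ E, (Ps.filter fun p : ℕ => (p : ℤ) ∣ w P).card := by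
    simp only [card_filter]
    exact Finset.sum_comm
  obtain ⟨p, hp, hmin⟩ := Finset.exists_min_image Ps
    (fun p => (E.filter fun P => (p : ℤ) ∣ w P).card) hne
  refine ⟨p, hp, ?_⟩
  have h1 : Ps.card * (E.filter fun P => (p : ℤ) ∣ w P).card ≤ h * E.card := by
    calc Ps.card * (E.filter fun P => (p : ℤ) ∣ w P).card
        = ∑ _q ∈ Ps, (E.filter fun P => (p : ℤ) ∣ w P).card := by simp
      _ ≤ ∑ q ∈ Ps, (E.filter fun P => (q : ℤ) ∣ w P).card :=
          Finset.sum_le_sum fun q hq => hmin q hq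
      _ = ∑ P ∈ E, (Ps.filter fun p : ℕ => (p : ℤ) ∣ w P).card := hdc
      _ ≤ ∑ _P ∈ E, h := Finset.sum_le_sum fun P hP' => hP P hP'
      _ = h * E.card := by simp [mul_comm]
  have hsplit : E.card = (E.filter fun P => (p : ℤ) ∣ w P).card +
      (E.filter fun P => ¬ (p : ℤ) ∣ w P).card :=
    (card_filter_add_card_filter_not _).symm
  have hc : 0 < Ps.card := hne.card_pos
  have h2' : 2 * (E.filter fun P => (p : ℤ) ∣ w P).card ≤ E.card := by
    by_contra hcon
    push Not at hcon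
    have : Ps.card * E.card < Ps.card * (2 * (E.filter fun P => (p : ℤ) ∣ w P).card) :=
      Nat.mul_lt_mul_of_pos_left hcon hc
    have h5 : Ps.card * (2 * (E.filter fun P => (p : ℤ) ∣ w P).card) ≤ 2 * (h * E.card) := by
      nlinarith
    have h6 : 2 * (h * E.card) ≤ Ps.card * E.card := by
      rw [← mul_assoc]; exact Nat.mul_le_mul_right _ hh
    omega
  omega

end Crest.Agent.R001.ST
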