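import Mathlib

/-!
# R001 / ST: the p-adic collinearity step

If three integer points on the curve `f = 0` are congruent modulo a prime `p` and `∂f/∂Y` does not
vanish modulo `p` there, the determinant of the three points is divisible by `p ^ 3`.
-/

set_option autoImplicit false

namespace Crest.Agent.R001.ST

open Polynomial Finset
open scoped Polynomial.Bivariate

/-- First-order Taylor expansion modulo `p ^ 2` at a point, for displacements divisible by `p`. -/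
theorem taylor_mod_sq (f : ℤ[X][Y]) (x y u v p : ℤ) (hu : p ∣ u) (hv : p ∣ v) :
    ∃ k : ℤ, f.evalEval (x + u) (y + v) = f.evalEval x y
      + (f.eval (C y)).derivative.eval x * u + f.derivative.evalEval x y * v + k * p ^ 2 := by
  obtain ⟨u', rfl⟩ := hu
  obtain ⟨v', rfl⟩ := hv
  -- the polynomial in Y at abscissa x + p u'
  have e1 : ∀ (g : ℤ[X][Y]) (s t : ℤ), g.evalEval s t = (g.map (evalRingHom s)).eval t := by
    intro g s t
    rw [evalEval, ← coe_evalRingHom, ← eval₂_hom, eval_map]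
    congr 1
    simp
  obtain ⟨k1, hk1⟩ := binomExpansion (f.map (evalRingHom (x + p * u'))) y (p * v')
  obtain ⟨k2, hk2⟩ := binomExpansion (f.eval (C y)) x (p * u')
  obtain ⟨k3, hk3⟩ := binomExpansion (f.derivative.eval (C y)) x (p * u')
  have h1 : f.evalEval (x + p * u') (y + p * v') =
      f.evalEval (x + p * u') y + f.derivative.evalEval (x + p * u') y * (p * v')
        + k1 * (p * v') ^ 2 := by
    rw [e1, hk1, e1, e1, derivative_map]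
  have h2 : f.evalEval (x + p * u') y = f.evalEval x y +
      (f.eval (C y)).derivative.eval x * (p * u') + k2 * (p * u') ^ 2 := by
    rw [evalEval, hk2]
  have h3 : f.derivative.evalEval (x + p * u') y = f.derivative.evalEval x y +
      (f.derivative.eval (C y)).derivative.eval x * (p * u') + k3 * (p * u') ^ 2 := by
    rw [evalEval, hk3]
  refine ⟨k1 * v' ^ 2 + k2 * u' ^ 2 + (f.derivative.eval (C y)).derivative.eval x * u' * v'
    + k3 * u' ^ 2 * p * v', ?_⟩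
  rw [h1, h2, h3]
  ring

/-- p-adic collinearity. -/
theorem padic_det (f : ℤ[X][Y]) (p : ℤ) (hp : Prime p) (x y u₁ v₁ u₂ v₂ : ℤ)
    (h0 : f.evalEval x y = 0) (hd : ¬ p ∣ f.derivative.evalEval x y)
    (hu₁ : p ∣ u₁) (hv₁ : p ∣ v₁) (hu₂ : p ∣ u₂) (hv₂ : p ∣ v₂)
    (h1 : f.evalEval (x + u₁) (y + v₁) = 0) (h2 : f.evalEval (x + u₂) (y + v₂) = 0) :
    p ^ 3 ∣ u₁ * v₂ - u₂ * v₁ := by
  obtain ⟨k1, hk1⟩ := taylor_mod_sq f x y u₁ v₁ p hu₁ hv₁
  obtain ⟨k2, hk2⟩ := taylor_mod_sq f x y u₂ v₂ p hu₂ hv₂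
  rw [h1, h0] at hk1
  rw [h2, h0] at hk2
  set α := (f.eval (C y)).derivative.eval x
  set β := f.derivative.evalEval x y
  obtain ⟨a1, ha1⟩ := hu₁
  obtain ⟨a2, ha2⟩ := hu₂
  have key : β * (u₁ * v₂ - u₂ * v₁) = p ^ 3 * (k1 * a2 - k2 * a1) := by
    have e1 : β * v₁ = - (α * u₁) - k1 * p ^ 2 := by linarith
    have e2 : β * v₂ = - (α * u₂) - k2 * p ^ 2 := by linarith
    calc β * (u₁ * v₂ - u₂ * v₁) = u₁ * (β * v₂) - u₂ * (β * v₁) := by ring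
      _ = p ^ 3 * (k1 * a2 - k2 * a1) := by rw [e1, e2, ha1, ha2]; ring
  have hcop : IsCoprime (p ^ 3) β := by
    apply IsCoprime.pow_left
    exact (Prime.coprime_iff_not_dvd hp).2 hd
  exact hcop.dvd_of_dvd_mul_left (Dvd.intro _ key.symm)

/-- three congruent points of a small box on the curve are collinear. -/
theorem padic_collinear (f : ℤ[X][Y]) (p B : ℤ) (hp : Prime p) (hB : 2 * B ^ 2 < p ^ 3)
    (x y x₁ y₁ x₂ y₂ : ℤ)
    (hx : 0 ≤ x ∧ x ≤ B) (hy : 0 ≤ y ∧ y ≤ B) (hx₁ : 0 ≤ x₁ ∧ x₁ ≤ B) (hy₁ : 0 ≤ y₁ ∧ y₁ ≤ B)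
    (hx₂ : 0 ≤ x₂ ∧ x₂ ≤ B) (hy₂ : 0 ≤ y₂ ∧ y₂ ≤ B)
    (h0 : f.evalEval x y = 0) (hd : ¬ p ∣ f.derivative.evalEval x y)
    (hu₁ : p ∣ x₁ - x) (hv₁ : p ∣ y₁ - y) (hu₂ : p ∣ x₂ - x) (hv₂ : p ∣ y₂ - y)
    (h1 : f.evalEval x₁ y₁ = 0) (h2 : f.evalEval x₂ y₂ = 0) :
    (x₁ - x) * (y₂ - y) = (x₂ - x) * (y₁ - y) := by
  have hdvd := padic_det f p hp x y (x₁ - x) (y₁ - y) (x₂ - x) (y₂ - y) h0 hd hu₁ hv₁ hu₂ hv₂
    (by simpa using h1) (by simpa using h2)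
  have hub : |(x₁ - x) * (y₂ - y) - (x₂ - x) * (y₁ - y)| < p ^ 3 := by
    have a1 : |x₁ - x| ≤ B := abs_le.2 ⟨by linarith [hx.2, hx₁.1], by linarith [hx.1, hx₁.2]⟩
    have a2 : |x₂ - x| ≤ B := abs_le.2 ⟨by linarith [hx.2, hx₂.1], by linarith [hx.1, hx₂.2]⟩
    have b1 : |y₁ - y| ≤ B := abs_le.2 ⟨by linarith [hy.2, hy₁.1], by linarith [hy.1, hy₁.2]⟩
    have b2 : |y₂ - y| ≤ B := abs_le.2 ⟨by linarith [hy.2, hy₂.1], by linarith [hy.1, hy₂.2]⟩
    have hB0 : 0 ≤ B := le_trans hx.1 hx.2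
    calc |(x₁ - x) * (y₂ - y) - (x₂ - x) * (y₁ - y)|
        ≤ |(x₁ - x) * (y₂ - y)| + |(x₂ - x) * (y₁ - y)| := abs_sub _ _
      _ = |x₁ - x| * |y₂ - y| + |x₂ - x| * |y₁ - y| := by rw [abs_mul, abs_mul]
      _ ≤ B * B + B * B := by gcongr
      _ < p ^ 3 := by nlinarith
  have hz : (x₁ - x) * (y₂ - y) - (x₂ - x) * (y₁ - y) = 0 := by
    by_contra hne
    have := Int.le_of_dvd (abs_pos.2 hne) ((dvd_abs _ _).2 hdvd)
    linarith
  linarith

end Crest.Agent.R001.ST
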