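import Mathlib

/-!
# R001 / ST: the auxiliary polynomial

`tab n c` is the bivariate polynomial with coefficient table `c`.  By the pigeonhole principle there is
a non-zero integer polynomial of small height which vanishes modulo every `g ∈ 𝒢` on a small set of
residue pairs modulo `g`.
-/

set_option autoImplicit false

namespace Crest.Agent.R001.ST

open Polynomial Finset
open scoped Polynomial.Bivariate

/-- the bivariate polynomial `∑ c i j X^i Y^j`. -/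
noncomputable def tab (n : ℕ) (c : Fin (n + 1) × Fin (n + 1) → ℤ) : ℤ[X][Y] :=
  ∑ ij : Fin (n + 1) × Fin (n + 1), monomial (ij.2 : ℕ) (monomial (ij.1 : ℕ) (c ij))

theorem evalEval_tab (n : ℕ) (c : Fin (n + 1) × Fin (n + 1) → ℤ) (x y : ℤ) :
    (tab n c).evalEval x y = ∑ ij, c ij * x ^ (ij.1 : ℕ) * y ^ (ij.2 : ℕ) := by
  unfold tab
  rw [evalEval_finsetSum]
  refine Finset.sum_congr rfl fun ij _ => ?_
  simp [evalEval, eval_monomial, mul_comm]

theorem coeff_tab (n : ℕ) (c : Fin (n + 1) × Fin (n + 1) → ℤ) (i j : ℕ) :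
    ((tab n c).coeff j).coeff i =
      if h : i < n + 1 ∧ j < n + 1 then c (⟨i, h.1⟩, ⟨j, h.2⟩) else 0 := by
  unfold tab
  rw [finsetSum_coeff, finsetSum_coeff]
  simp only [coeff_monomial]
  have : ∀ ij : Fin (n + 1) × Fin (n + 1),
      (if (ij.2 : ℕ) = j then monomial (ij.1 : ℕ) (c ij) else (0 : ℤ[X])).coeff i =
      if ((ij.1 : ℕ) = i ∧ (ij.2 : ℕ) = j) then c ij else 0 := by
    intro ij
    by_cases h2 : (ij.2 : ℕ) = j
    · simp [h2, coeff_monomial]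
    · simp [h2]
  simp only [this]
  split_ifs with h
  · rw [Finset.sum_eq_single (⟨i, h.1⟩, ⟨j, h.2⟩)]
    · simp
    · rintro ⟨a, b⟩ _ hne
      rw [if_neg]
      rintro ⟨ha, hb⟩
      apply hne
      ext <;> simp_all
    · simp
  · apply Finset.sum_eq_zero
    rintro ⟨a, b⟩ _
    rw [if_neg]
    rintro ⟨ha, hb⟩
    apply h
    simp only at ha hb
    exact ⟨ha ▸ a.2, hb ▸ b.2⟩

/-- `Bdd n H f`: both partial degrees of `f` are `≤ n` and all coefficients are `≤ H` in absolute value. -/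
structure Bdd (n : ℕ) (H : ℤ) (f : ℤ[X][Y]) : Prop where
  degY : f.natDegree ≤ n
  degX : ∀ j, (f.coeff j).natDegree ≤ n
  ht : ∀ i j, |(f.coeff j).coeff i| ≤ H

theorem bdd_tab (n : ℕ) (H : ℤ) (hH : 0 ≤ H) (c : Fin (n + 1) × Fin (n + 1) → ℤ)
    (hc : ∀ ij, |c ij| ≤ H) : Bdd n H (tab n c) := by
  refine ⟨?_, ?_, ?_⟩
  · rw [natDegree_le_iff_coeff_eq_zero]
    intro N hN
    ext i
    rw [coeff_tab, dif_neg]
    · simp
    · rintro ⟨_, h⟩; omega
  · intro j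
    rw [natDegree_le_iff_coeff_eq_zero]
    intro N hN
    rw [coeff_tab, dif_neg]
    rintro ⟨h, _⟩; omega
  · intro i j
    rw [coeff_tab]
    split_ifs with h
    · exact hc _
    · simpa using hH

theorem Bdd.deriv {n : ℕ} {H : ℤ} {f : ℤ[X][Y]} (h : Bdd n H f) (hH : 0 ≤ H) :
    Bdd n (H * n) f.derivative := by
  refine ⟨?_, ?_, ?_⟩
  · exact le_trans (natDegree_derivative_le f) (by have := h.degY; omega)
  · intro j
    rw [coeff_derivative]
    have : ((f.coeff (j + 1)) * ((j : ℤ[X]) + 1)).natDegree ≤ (f.coeff (j + 1)).natDegree := by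
      have e : ((j : ℤ[X]) + 1) = C ((j : ℤ) + 1) := by simp
      rw [e]
      exact natDegree_mul_C_le _ _
    exact le_trans this (h.degX _)
  · intro i j
    rw [coeff_derivative]
    have e : ((j : ℤ[X]) + 1) = C ((j : ℤ) + 1) := by simp
    rw [e, coeff_mul_C, abs_mul]
    by_cases hj : j + 1 ≤ n
    · have h1 := h.ht i (j + 1)
      have h2 : |((j : ℤ) + 1)| ≤ n := by
        rw [abs_of_nonneg (by positivity)]
        exact_mod_cast hj
      exact mul_le_mul h1 h2 (abs_nonneg _) hH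
    · have : f.coeff (j + 1) = 0 := coeff_eq_zero_of_natDegree_lt (by have := h.degY; omega)
      rw [this]
      simp
      positivity

theorem Bdd.iterate_derivative {n : ℕ} {H : ℤ} {f : ℤ[X][Y]} (h : Bdd n H f) (hH : 0 ≤ H) (k : ℕ) :
    Bdd n (H * n ^ k) (Polynomial.derivative^[k] f) := by
  induction k with
  | zero => simpa using h
  | succ k ih =>
    rw [Function.iterate_succ_apply']
    have := ih.deriv (by positivity)
    rw [pow_succ, ← mul_assoc]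
    exact this

theorem Bdd.abs_evalEval_le {n : ℕ} {H : ℤ} {f : ℤ[X][Y]} (h : Bdd n H f) (hH : 0 ≤ H)
    {B x y : ℤ} (hB : 1 ≤ B) (hx : |x| ≤ B) (hy : |y| ≤ B) :
    |f.evalEval x y| ≤ (n + 1) ^ 2 * H * B ^ (2 * n) := by
  have hpow : ∀ k ∈ range (n + 1), ∀ t : ℤ, |t| ≤ B → |t ^ k| ≤ B ^ n := by
    intro k hk t ht
    rw [abs_pow]
    calc |t| ^ k ≤ B ^ k := pow_le_pow_left₀ (abs_nonneg _) ht k
      _ ≤ B ^ n := pow_le_pow_right₀ hB (by have := mem_range.1 hk; omega)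
  have hin : ∀ j, |(f.coeff j).eval x| ≤ (n + 1) * H * B ^ n := by
    intro j
    rw [eval_eq_sum_range' (show (f.coeff j).natDegree < n + 1 by have := h.degX j; omega)]
    calc |∑ i ∈ range (n + 1), (f.coeff j).coeff i * x ^ i|
        ≤ ∑ i ∈ range (n + 1), |(f.coeff j).coeff i * x ^ i| := abs_sum_le_sum_abs _ _
      _ ≤ ∑ i ∈ range (n + 1), H * B ^ n := by
          refine Finset.sum_le_sum fun i hi => ?_
          rw [abs_mul]
          exact mul_le_mul (h.ht i j) (hpow i hi x hx) (abs_nonneg _) hH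
      _ = (n + 1) * H * B ^ n := by simp; ring
  have hout : f.evalEval x y = ∑ j ∈ range (n + 1), (f.coeff j).eval x * y ^ j := by
    rw [evalEval, eval_eq_sum_range' (show f.natDegree < n + 1 by have := h.degY; omega),
      eval_finsetSum]
    refine Finset.sum_congr rfl fun j _ => ?_
    simp
  rw [hout]
  calc |∑ j ∈ range (n + 1), (f.coeff j).eval x * y ^ j|
      ≤ ∑ j ∈ range (n + 1), |(f.coeff j).eval x * y ^ j| := abs_sum_le_sum_abs _ _
    _ ≤ ∑ j ∈ range (n + 1), ((n + 1) * H * B ^ n) * B ^ n := by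
        refine Finset.sum_le_sum fun j hj => ?_
        rw [abs_mul]
        exact mul_le_mul (hin j) (hpow j hj y hy) (abs_nonneg _) (by positivity)
    _ = (n + 1) ^ 2 * H * B ^ (2 * n) := by simp; ring

/-- Pigeonhole: an auxiliary polynomial. -/
theorem exists_tab (n H s : ℕ) (𝒢 : Finset ℕ) (S : ∀ g : ℕ, Finset (ZMod g × ZMod g))
    (hg : ∀ g ∈ 𝒢, 0 < g) (hS : ∀ g ∈ 𝒢, (S g).card ≤ s)
    (hcount : ∏ g ∈ 𝒢, g ^ s < (H + 1) ^ ((n + 1) ^ 2)) :
    ∃ c : Fin (n + 1) × Fin (n + 1) → ℤ, c ≠ 0 ∧ (∀ ij, |c ij| ≤ H) ∧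
      ∀ g ∈ 𝒢, ∀ P ∈ S g,
        ∑ ij, ((c ij : ℤ) : ZMod g) * P.1 ^ (ij.1 : ℕ) * P.2 ^ (ij.2 : ℕ) = 0 := by
  classical
  have : ∀ g : {g // g ∈ 𝒢}, NeZero g.1 := fun g => ⟨(hg g.1 g.2).ne'⟩
  let Φ : (Fin (n + 1) × Fin (n + 1) → Fin (H + 1)) →
      ((g : {g // g ∈ 𝒢}) → ({P // P ∈ S g.1} → ZMod g.1)) := fun c g P =>
    ∑ ij, ((c ij : ℕ) : ZMod g.1) * P.1.1 ^ (ij.1 : ℕ) * P.1.2 ^ (ij.2 : ℕ)
  have hcard : Fintype.card ((g : {g // g ∈ 𝒢}) → ({P // P ∈ S g.1} → ZMod g.1)) <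
      Fintype.card (Fin (n + 1) × Fin (n + 1) → Fin (H + 1)) := by
    rw [Fintype.card_pi]
    simp only [Fintype.card_fun, Fintype.card_prod, Fintype.card_fin, ZMod.card, Fintype.card_coe]
    calc ∏ g : {g // g ∈ 𝒢}, (g.1) ^ (S g.1).card
        ≤ ∏ g : {g // g ∈ 𝒢}, (g.1) ^ s := by
          refine Finset.prod_le_prod' fun g _ => ?_
          exact Nat.pow_le_pow_right (hg g.1 g.2) (hS g.1 g.2)
      _ = ∏ g ∈ 𝒢, g ^ s := Finset.prod_coe_sort 𝒢 (fun g => g ^ s)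
      _ < (H + 1) ^ ((n + 1) ^ 2) := hcount
      _ = (H + 1) ^ ((n + 1) * (n + 1)) := by rw [sq]
  obtain ⟨c₁, c₂, hne, heq⟩ := Fintype.exists_ne_map_eq_of_card_lt Φ hcard
  refine ⟨fun ij => ((c₁ ij : ℕ) : ℤ) - ((c₂ ij : ℕ) : ℤ), ?_, ?_, ?_⟩
  · intro h
    apply hne
    funext ij
    have := congrFun h ij
    simp only [Pi.zero_apply] at this
    apply Fin.ext
    have : ((c₁ ij : ℕ) : ℤ) = ((c₂ ij : ℕ) : ℤ) := by linarith
    exact_mod_cast this
  · intro ij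
    have h1 : ((c₁ ij : ℕ) : ℤ) ≤ H := by exact_mod_cast Nat.lt_succ_iff.1 (c₁ ij).2
    have h2 : ((c₂ ij : ℕ) : ℤ) ≤ H := by exact_mod_cast Nat.lt_succ_iff.1 (c₂ ij).2
    rw [abs_le]
    constructor <;> [skip; skip] <;> have := Int.natCast_nonneg (c₁ ij : ℕ) <;>
      have := Int.natCast_nonneg (c₂ ij : ℕ) <;> linarith
  · intro g hgm P hP
    have := congrFun (congrFun heq ⟨g, hgm⟩) ⟨P, hP⟩
    simp only [Φ] at this
    have h2 : ∑ ij : Fin (n + 1) × Fin (n + 1),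
        ((((c₁ ij : ℕ) : ZMod g) * P.1 ^ (ij.1 : ℕ) * P.2 ^ (ij.2 : ℕ))
        - (((c₂ ij : ℕ) : ZMod g) * P.1 ^ (ij.1 : ℕ) * P.2 ^ (ij.2 : ℕ))) = 0 := by
      rw [Finset.sum_sub_distrib, this, sub_self]
    rw [← h2]
    refine Finset.sum_congr rfl fun ij _ => ?_
    push_cast
    ring

/-- The auxiliary polynomial vanishes at every point lying in many of the sets `S g`. -/
theorem exists_aux (n H s τ G₀ : ℕ) (B : ℤ) (𝒢 : Finset ℕ) (S : ∀ g : ℕ, Finset (ZMod g × ZMod g))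
    (hprime : ∀ g ∈ 𝒢, g.Prime) (hG : ∀ g ∈ 𝒢, G₀ ≤ g) (hS : ∀ g ∈ 𝒢, (S g).card ≤ s)
    (hcount : ∏ g ∈ 𝒢, g ^ s < (H + 1) ^ ((n + 1) ^ 2)) (hB : 1 ≤ B)
    (hsize : ((n : ℤ) + 1) ^ 2 * H * B ^ (2 * n) < (G₀ : ℤ) ^ τ) (hG1 : 1 ≤ G₀) :
    ∃ f : ℤ[X][Y], f ≠ 0 ∧ Bdd n H f ∧ ∀ x y : ℤ, |x| ≤ B → |y| ≤ B →
      τ ≤ (𝒢.filter fun g => ((x : ZMod g), (y : ZMod g)) ∈ S g).card → f.evalEval x y = 0 := by
  classical
  obtain ⟨c, hc0, hcH, hcS⟩ := exists_tab n H s 𝒢 S (fun g h => (hprime g h).pos) hS hcount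
  have hb : Bdd n H (tab n c) := bdd_tab n H (by positivity) c hcH
  refine ⟨tab n c, ?_, hb, ?_⟩
  · intro h
    apply hc0
    funext ij
    have := coeff_tab n c ij.1 ij.2
    rw [dif_pos ⟨ij.1.2, ij.2.2⟩, h] at this
    simpa using this.symm
  · intro x y hx hy hcard
    by_contra hne
    have hdvd : (∏ g ∈ 𝒢.filter (fun g => ((x : ZMod g), (y : ZMod g)) ∈ S g), g) ∣
        ((tab n c).evalEval x y).natAbs := by
      apply Finset.prod_primes_dvd
      · intro g hg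
        exact (hprime g (mem_filter.1 hg).1).prime
      · intro g hg
        obtain ⟨hg1, hg2⟩ := mem_filter.1 hg
        have := hcS g hg1 _ hg2
        rw [← Int.natCast_dvd_natCast, Int.dvd_natAbs, ← ZMod.intCast_zmod_eq_zero_iff_dvd,
          evalEval_tab]
        push_cast
        exact this
    have hle := Nat.le_of_dvd (Int.natAbs_pos.2 hne) hdvd
    have hpow : G₀ ^ τ ≤ ∏ g ∈ 𝒢.filter (fun g => ((x : ZMod g), (y : ZMod g)) ∈ S g), g := by
      calc G₀ ^ τ ≤ G₀ ^ (𝒢.filter (fun g => ((x : ZMod g), (y : ZMod g)) ∈ S g)).card :=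
            Nat.pow_le_pow_right hG1 hcard
        _ = ∏ g ∈ 𝒢.filter (fun g => ((x : ZMod g), (y : ZMod g)) ∈ S g), G₀ := by simp
        _ ≤ _ := Finset.prod_le_prod' fun g hg => hG g (mem_filter.1 hg).1
    have habs := hb.abs_evalEval_le (by positivity) hB hx hy
    have h3 : ((G₀ : ℤ)) ^ τ ≤ |(tab n c).evalEval x y| := by
      rw [Int.abs_eq_natAbs]
      exact_mod_cast le_trans hpow hle
    linarith

end Crest.Agent.R001.ST
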